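import Vale.Agent.N209.Nec

namespace Vale.Agent.Results.P209.A0Ellipsoids

open Vale.Agent.P209 Vale.Agent.N209

/-- **Extension of the Siegel-Yao Conjecture A from balls to ellipsoids** (`n ≥ 3`).
(1) Families of balls and long ellipsoids `E(b, r, …, r)` (`b = r` or `b ≥ 2 r`): the only
obstructions are the volume and the two-ball obstruction.
(2) One ellipsoid `E(b, r, …, r)`, `b ≥ r`.
(3) Ellipsoids with an arbitrary first axis and short other axes: only the volume matters. -/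
theorem result :
    (∀ n k : ℕ, 3 ≤ n → ∀ (R : ℝ) (r b : Fin k → ℝ), 0 < R → (∀ i, 0 < r i) →
      (∀ i, b i = r i ∨ 2 * r i ≤ b i) →
      (PacksSets (openBall n R) (fun i => ellipsoid (axes n (b i) (r i))) ↔
        ∑ i, r i ^ (n - 1) * b i < R ^ n ∧ (∀ i j, i < j → r i + r j < R) ∧
          ∀ i, min (b i) (2 * r i) < R)) ∧
    (∀ n : ℕ, 3 ≤ n → ∀ R r b : ℝ, 0 < R → 0 < r → r ≤ b →
      ((∃ f, IsEmb (ellipsoid (axes n b r)) f ∧ f '' ellipsoid (axes n b r) ⊆ openBall n R) ↔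
        r ^ (n - 1) * b < R ^ n ∧ min b (2 * r) < R)) ∧
    (∀ n k : ℕ, 3 ≤ n → ∀ (R : ℝ) (a : Fin k → Fin n → ℝ), 0 < R → (∀ i j, 0 < a i j) →
      ((∀ i (j : Fin n), (j : ℕ) ≠ 0 → a i j < R ∧ ((j : ℕ) ≤ 2 → 2 * a i j < R)) ∨
        ∃ i₀ r₀, (∀ j, a i₀ j = r₀) ∧ R ≤ 2 * r₀ ∧
          ∀ i, i ≠ i₀ → ∀ j : Fin n, (j : ℕ) ≠ 0 → r₀ + a i j < R) →
      (PacksSets (openBall n R) (fun i => ellipsoid (a i)) ↔ ∑ i, ∏ j, a i j < R ^ n)) :=
  ⟨fun n k hn R r b hR hr hb => family n k hn R r b hR hr hb,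
    fun n hn R r b hR hr hb => single n hn R r b hR hr hb,
    fun n k hn R a hR ha h => general n k hn R a hR ha h⟩

end Vale.Agent.Results.P209.A0Ellipsoids
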